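import Vale.Agent.P167.H398.Q.Fin
import Vale.Agent.P167.H506.Q.S2F
import Vale.Agent.P167.H945.S.SFin

/-!
# P167, general `q`, skeleton: block 2A from the open inputs `L1S`, `L2S`, `P2S`
-/

namespace Vale.Agent.P167.H208.Skel

open MeasureTheory
open Vale.Agent.P167.FK
open Vale.Agent.P167.H519 (IsLim)
open Vale.Agent.P167.H825.Q (S2aQq)
open Vale.Agent.P167.H398.Q (L1S L2S P2S s2aQq_F)

variable {θ β : ℝ} {P : Measure Cfg}

/-- **Block 2A.** -/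
theorem s2a (h0 : 0 < θ) (h1 : θ ≤ Real.pi / 3)
    (hβ : β = (θ - Real.pi) / 2 ∨ β = (Real.pi - 3 * θ) / 2) (hP : IsLim (2 * Real.cos θ) P)
    (hL1 : L1S θ β) (hL2 : L2S θ β) (hP2 : P2S θ β P) : S2aQq θ β :=
  s2aQq_F h0 h1 hβ hP hL1 hL2 hP2
    (H945.S.h2s h0 h1 hβ (K8.k_rsw θ h0.le h1) (H506.Q.p1bU h0 h1) hP
      (H199.good_aeQ h0.le h1 hP h0))
    (H506.Q.p3SU h0 h1 hβ hP) (H506.Q.p1aS_z h0 h1 (K8.k_rsw θ h0.le h1))

end Vale.Agent.P167.H208.Skel
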