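import Vale.Agent.P167.QT.TopC
import Vale.Agent.P167.H199.DT.Main

/-!
# P167, general `q`, skeleton: the tightness of the driver
-/

set_option autoImplicit false

namespace Vale.Agent.P167.H208.Skel

/-- **The block of the tightness of the driver.** -/
theorem blockDT : QT.BlockDT := fun _ h1 h4 => H199.DT.dt_out h1.le h4.le

end Vale.Agent.P167.H208.Skel
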