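import Vale.Agent.P167.QT.TopC
import Vale.Agent.P167.H446.G.Cl
import Vale.Agent.P167.H918.AllS
import Vale.Agent.P167.H542.Q.Cm4

/-!
# P167, general `q`, skeleton: the geometric block from `B_bad`, `B_shp`
-/

set_option autoImplicit false

namespace Vale.Agent.P167.H208.Skel

open Vale.Agent.P167.H446.G (B_all B_bad B_cmp B_shp B_cl geoQ_of b_cl)

/-- **The geometric block.** -/
theorem blockG_of
    (hBad : ∀ μ : ℝ, 0 < μ → μ < Real.pi / 3 → B_bad μ)
    (hShp : B_shp) : QT.BlockG := by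
  intro μ h0 h1
  have hc : 0 < Real.cos μ := Real.cos_pos_of_mem_Ioo ⟨by linarith [Real.pi_pos], by
    linarith [Real.pi_pos]⟩
  have hR := K8.k_rsw μ h0.le h1.le
  have hS := H469.srsw_of_rsw h0 h1.le hR
  have hq := H542.Q.BD.one_le h0 h1.le
  exact geoQ_of hc (H918.b_all hq hR hS) (hBad μ h0 h1) (H542Q.Cmp.b_cmp hq hR hS) hShp (b_cl μ)

end Vale.Agent.P167.H208.Skel
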