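import Vale.Agent.P167.QT.TopC
import Vale.Agent.P167.H208.Skel.A2
import Vale.Agent.P167.H872.Asm.IdN
import Vale.Agent.P167.H460.BQ.Fin
import Vale.Agent.P167.H692.B.Asm
import Vale.Agent.P167.H452.BE.Main
import Vale.Agent.P167.H436.SP.In2
import Vale.Agent.P167.H704.S.Fin
import Vale.Agent.P167.QX.S8

/-!
# P167, general `q`, skeleton: the identity and the bridge from the open inputs
-/

set_option autoImplicit false

namespace Vale.Agent.P167.H208.Skel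

open MeasureTheory Vale.Agent.P167.FK Vale.Agent.P167.FKA
open Vale.Agent.P167.H519 (IsLim)
open Vale.Agent.P167.CA (Dat)
open Vale.Agent.P167.H825.Q (Bc)
open Vale.Agent.P167.H760.Q (TwoAll)
open Vale.Agent.P167.H398.Q (L2S)
open Vale.Agent.P167.H872.Asm (In2 Gd BcG fam idN_of)
open Vale.Agent.P167.QB (gB)

/-- **Open**: the local Neumann input. -/
def OpTw (θ : ℝ) (h0 : 0 < θ) (h1 : θ ≤ Real.pi / 3) : Prop :=
  ∀ (S : Dat) (bc : Bc) (hbc : bc.In S.l) (L : Filter ℕ) (hL : L ≤ Filter.atTop)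
    (hc : L.IsCountablyGenerated), Gd S L → BcG S bc → ∀ f, S.FF f →
      TwoAll (2 * Real.cos θ) S L fun n => (fam h0 h1 S bc hbc L hL hc).H n f

/-- **The identity and the bridge.** Open inputs: `L2S`, the local Neumann input. -/
theorem blockIB_of
    (hL2 : ∀ θ : ℝ, 0 < θ → θ < Real.pi / 3 → L2S θ (gB θ))
    (hTw : ∀ (θ : ℝ) (h0 : 0 < θ) (h1 : θ ≤ Real.pi / 3), θ < Real.pi / 3 → OpTw θ h0 h1) :
    QT.BlockIB := by
  intro μ h0 h1 h2 ε hε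
  have hQ1 : 1 ≤ 2 * Real.cos μ := H542.Q.BD.one_le h0 h1
  have hR := K8.k_rsw μ h0.le h1
  have hS := H469.srsw_of_rsw h0 h1 hR
  obtain ⟨P, hP⟩ := H662.L.exists_isLim hQ1 hR
  have hI : In2 μ h0 h1 := ⟨s2a h0 h1 (Or.inl rfl) hP (QX.l1S h0 h1 (Or.inl rfl)) (hL2 μ h0 h2)
    (H704.S.p2s h0 h1 (Or.inl rfl) hP), hTw μ h0 h1 h2⟩
  have hb : QB.S_beta μ := H692.B.s_betaL hQ1 hR hS (H452.BE.s_BE h0 h2 hR hS hP)
    (H436.SP.powL_in2 h0 h1 hI hP)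
  obtain ⟨χ, hχ, hB⟩ := BQ460.brQ_beta h0 h2 hR hS hP hb hε
  exact ⟨χ, (idN_of h0 h1 hI hχ).idQ, hB⟩

end Vale.Agent.P167.H208.Skel
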