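import Vale.Agent.P167.H872.Asm.Shp
import Vale.Agent.P167.H174.BD.Fin

/-!
# P167, general `q`: the final statement
-/

set_option autoImplicit false

namespace Vale.Agent.P167.H208.Skel

/-- **The final statement** for all `1 ≤ q < 4`. -/
theorem final : ∀ q : ℝ, 1 ≤ q → q < 4 → Final.Question q :=
  H872.Asm.final_b3 H174.BD.p_b3

end Vale.Agent.P167.H208.Skel
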